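import Mathlib

/-!
# P038 (H795): inner cost at most outer cost

Finite set `V`, positive weights `w`, closed out-neighbourhoods `N a` of an oriented graph.
`cl N S = N[S]`, `cc w N S = w(N[S]) - w(S)`.

* `OuterP N B C`: `N a ⊆ B a`, `N a ⊆ C a` and `b ∈ B a`, `a ∈ C b` only for `a = b`.
* `key`: the parametric inequality between the rows `[B a, Bh a]` and the eroded rows.
* `inner_le_outer`: at an outer optimum `(B, C)` the eroded pair costs at most as much.
* `no_strict`: if `cc (N[S]) < cc S` for every `S` with `N[S] ≠ S` then some vertex is a sink.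
-/

namespace Vale.Agent.P038.H795

open Finset

variable {V : Type*} [Fintype V] [DecidableEq V]

/-- The weight of a set. -/
noncomputable def wt (w : V → ℝ) (S : Finset V) : ℝ := ∑ v ∈ S, w v

omit [Fintype V] in
omit [DecidableEq V] in
theorem wt_mono {w : V → ℝ} (hw : ∀ v, 0 ≤ w v) {S T : Finset V} (h : S ⊆ T) :
    wt w S ≤ wt w T :=
  Finset.sum_le_sum_of_subset_of_nonneg h fun v _ _ => hw v

omit [Fintype V] in
theorem wt_union_inter (w : V → ℝ) (S T : Finset V) :
    wt w (S ∪ T) + wt w (S ∩ T) = wt w S + wt w T := Finset.sum_union_inter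

omit [Fintype V] in
theorem wt_union {w : V → ℝ} {S T : Finset V} (h : Disjoint S T) :
    wt w (S ∪ T) = wt w S + wt w T := Finset.sum_union h

/-- The closed out-neighbourhood of a set. -/
def cl (N : V → Finset V) (S : Finset V) : Finset V := S.biUnion N

omit [Fintype V] in
theorem mem_cl {N : V → Finset V} {S : Finset V} {z : V} : z ∈ cl N S ↔ ∃ y ∈ S, z ∈ N y := by
  simp [cl]

/-- The weight of the boundary of `S`. -/
noncomputable def cc (w : V → ℝ) (N : V → Finset V) (S : Finset V) : ℝ :=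
  wt w (cl N S) - wt w S

omit [Fintype V] in
theorem cc_submod {w : V → ℝ} (hw : ∀ v, 0 ≤ w v) (N : V → Finset V) (S T : Finset V) :
    cc w N (S ∪ T) + cc w N (S ∩ T) ≤ cc w N S + cc w N T := by
  have h1 := wt_union_inter w S T
  have h2 := wt_union_inter w (cl N S) (cl N T)
  have h3 : cl N (S ∪ T) = cl N S ∪ cl N T := Finset.union_biUnion
  have h4 : cl N (S ∩ T) ⊆ cl N S ∩ cl N T := by
    intro z hz
    obtain ⟨y, hy, hz⟩ := mem_cl.1 hz
    rw [Finset.mem_inter] at hy ⊢
    exact ⟨mem_cl.2 ⟨y, hy.1, hz⟩, mem_cl.2 ⟨y, hy.2, hz⟩⟩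
  have h5 := wt_mono hw h4
  unfold cc
  rw [h3]
  linarith

/-! ### The parametric lemma -/

/-- `R` minimises `M f(S) - j |S|` over the sets `S` between `L` and `H`. -/
structure IsMn (f : Finset V → ℝ) (M j : ℕ) (L H R : Finset V) : Prop where
  lo : L ⊆ R
  hi : R ⊆ H
  mn : ∀ S, L ⊆ S → S ⊆ H → (M : ℝ) * f R - j * (R.card : ℝ) ≤ M * f S - j * (S.card : ℝ)

theorem exists_isMn (f : Finset V → ℝ) (M j : ℕ) {L H : Finset V} (h : L ⊆ H) :
    ∃ R, IsMn f M j L H R := by
  obtain ⟨R, hR, hmin⟩ := Finset.exists_min_image (Finset.univ.filter fun S => L ⊆ S ∧ S ⊆ H)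
    (fun S => (M : ℝ) * f S - j * (S.card : ℝ)) ⟨L, by simp [h]⟩
  rw [Finset.mem_filter] at hR
  exact ⟨R, hR.2.1, hR.2.2, fun S h1 h2 => hmin S (by simp [h1, h2])⟩

omit [Fintype V] in
theorem IsMn.subset {f : Finset V → ℝ}
    (hf : ∀ S T, f (S ∪ T) + f (S ∩ T) ≤ f S + f T) {M j : ℕ} {L1 H1 R1 L2 H2 R2 : Finset V}
    (h1 : IsMn f M j L1 H1 R1) (h2 : IsMn f M (j + 1) L2 H2 R2) (hL : L1 ⊆ L2) (hH : H1 ⊆ H2) :
    R1 ⊆ R2 := by
  have e1 := h1.mn (R1 ∩ R2) (Finset.subset_inter h1.lo (hL.trans h2.lo))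
    (Finset.inter_subset_left.trans h1.hi)
  have e2 := h2.mn (R1 ∪ R2) (h2.lo.trans Finset.subset_union_right)
    (Finset.union_subset (h1.hi.trans hH) h2.hi)
  have e3 := hf R1 R2
  have e4 : ((R1 ∪ R2).card : ℝ) + ((R1 ∩ R2).card : ℝ) = (R1.card : ℝ) + (R2.card : ℝ) := by
    exact_mod_cast Finset.card_union_add_card_inter R1 R2
  have e5 : (M : ℝ) * (f (R1 ∪ R2) + f (R1 ∩ R2)) ≤ M * (f R1 + f R2) :=
    mul_le_mul_of_nonneg_left e3 (Nat.cast_nonneg M)
  have e6 : ((R1 ∪ R2).card : ℝ) ≤ (R2.card : ℝ) := by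
    push_cast at e2
    have e7 : (j : ℝ) * (((R1 ∪ R2).card : ℝ) + ((R1 ∩ R2).card : ℝ)) =
        j * ((R1.card : ℝ) + (R2.card : ℝ)) := by rw [e4]
    nlinarith
  have e8 : (R1 ∪ R2).card ≤ R2.card := by exact_mod_cast e6
  have e9 : R2 = R1 ∪ R2 := Finset.eq_of_subset_of_card_le Finset.subset_union_right e8
  rw [e9]
  exact Finset.subset_union_left

omit [Fintype V] in
theorem card_sdiff_real {R H : Finset V} (h : R ⊆ H) :
    ((H \ R).card : ℝ) = (H.card : ℝ) - (R.card : ℝ) := by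
  rw [Finset.card_sdiff_of_subset h, Nat.cast_sub (Finset.card_le_card h)]

omit [Fintype V] in
/-- Upper bound by telescoping. -/
theorem par_upper {f : Finset V → ℝ} {K0 : ℕ} (hK : ∀ S T, f T - f S ≤ K0) {M : ℕ}
    {L H : Finset V} (hLH : L ⊆ H) {R : ℕ → Finset V} (hR : ∀ j, IsMn f M j L H (R j)) :
    (M : ℝ) * (f H - f L) ≤ ∑ j ∈ Finset.range (M * K0), ((H \ R j).card : ℝ) := by
  have h1 : ∀ n : ℕ, (M : ℝ) * f (R n) - n * ((R n).card : ℝ) + n * (H.card : ℝ) ≤
      M * f L + ∑ j ∈ Finset.range n, ((H \ R j).card : ℝ) := by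
    intro n
    induction n with
    | zero =>
      have := (hR 0).mn L (Finset.Subset.refl _) hLH
      simpa using this
    | succ n ih =>
      rw [Finset.sum_range_succ, card_sdiff_real (hR n).hi]
      have := (hR (n + 1)).mn (R n) (hR n).lo (hR n).hi
      push_cast at this ⊢
      linarith
  have h2 := h1 (M * K0)
  have h3 : (M : ℝ) * f H ≤ M * f (R (M * K0)) - (M * K0 : ℕ) * ((R (M * K0)).card : ℝ) +
      (M * K0 : ℕ) * (H.card : ℝ) := by
    rcases eq_or_ne (R (M * K0)) H with h | h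
    · rw [h]; linarith
    · have h4 : (R (M * K0)).card + 1 ≤ H.card := by
        have := Finset.card_lt_card (Finset.ssubset_iff_subset_ne.2 ⟨(hR (M * K0)).hi, h⟩)
        omega
      have h5 : ((R (M * K0)).card : ℝ) + 1 ≤ (H.card : ℝ) := by exact_mod_cast h4
      have h6 := hK (R (M * K0)) H
      have h7 : (M : ℝ) * (f H - f (R (M * K0))) ≤ M * K0 :=
        mul_le_mul_of_nonneg_left h6 (Nat.cast_nonneg M)
      have h8 : (0 : ℝ) ≤ (M : ℝ) * K0 := by positivity
      have h9 : (M : ℝ) * K0 * 1 ≤ M * K0 * ((H.card : ℝ) - ((R (M * K0)).card : ℝ)) :=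
        mul_le_mul_of_nonneg_left (by linarith) h8
      push_cast
      linarith
  linarith

omit [Fintype V] in
/-- Lower bound by telescoping. -/
theorem par_lower {f : Finset V → ℝ} {M : ℕ}
    {L H : Finset V} (hLH : L ⊆ H) (hL : ∀ S, L ⊆ S → S ⊆ H → f L ≤ f S)
    {R : ℕ → Finset V} (hR : ∀ j, IsMn f M j L H (R j)) (n : ℕ) :
    ∑ j ∈ Finset.range n, ((H \ R (j + 1)).card : ℝ) ≤ (M : ℝ) * (f H - f L) := by
  have h1 : ∀ n : ℕ, (M : ℝ) * f L + ∑ j ∈ Finset.range n, ((H \ R (j + 1)).card : ℝ) ≤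
      (M : ℝ) * f (R n) - n * ((R n).card : ℝ) + n * (H.card : ℝ) := by
    intro n
    induction n with
    | zero =>
      have := mul_le_mul_of_nonneg_left (hL (R 0) (hR 0).lo (hR 0).hi) (Nat.cast_nonneg M)
      simpa using this
    | succ n ih =>
      rw [Finset.sum_range_succ, card_sdiff_real (hR (n + 1)).hi]
      have := (hR n).mn (R (n + 1)) (hR (n + 1)).lo (hR (n + 1)).hi
      push_cast at this ⊢
      linarith
  have h2 := h1 n
  have h3 := (hR n).mn H hLH (Finset.Subset.refl _)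
  linarith

theorem sum_card (w : V → ℝ) (P : V → Finset V) :
    ∑ a, w a * ((P a).card : ℝ) = ∑ x, wt w (Finset.univ.filter fun a => x ∈ P a) := by
  unfold wt
  simp only [Finset.sum_filter]
  rw [Finset.sum_comm]
  refine Finset.sum_congr rfl fun a _ => ?_
  rw [Finset.sum_ite_mem, Finset.univ_inter, Finset.sum_const, nsmul_eq_mul, mul_comm]

/-- The key inequality. -/
theorem key {w : V → ℝ} (hw : ∀ v, 0 ≤ w v) (N : V → Finset V) {f : Finset V → ℝ}
    (hf : ∀ S T, f (S ∪ T) + f (S ∩ T) ≤ f S + f T) {B Bh I J : V → Finset V}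
    (hB : ∀ a, B a ⊆ Bh a) (hI : ∀ t, I t ⊆ J t)
    (hIB : ∀ t a, t ∈ N a → I t ⊆ B a) (hJB : ∀ t a, t ∈ N a → J t ⊆ Bh a)
    (hmin : ∀ t S, I t ⊆ S → S ⊆ J t → f (I t) ≤ f S)
    (hcol : ∀ x, ∀ D : Finset V, (∀ a ∈ D, x ∈ Bh a ∧ x ∉ B a) →
      wt w D ≤ wt w (Finset.univ.filter fun t => x ∈ J t ∧ ∃ a ∈ D, t ∈ N a)) :
    ∑ a, w a * (f (Bh a) - f (B a)) ≤ ∑ t, w t * (f (J t) - f (I t)) := by
  obtain ⟨K0, hK0⟩ : ∃ K0 : ℕ, ∀ S T : Finset V, f T - f S ≤ K0 := by
    obtain ⟨S1, -, h1⟩ := Finset.exists_max_image (Finset.univ : Finset (Finset V)) f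
      ⟨∅, Finset.mem_univ _⟩
    obtain ⟨S2, -, h2⟩ := Finset.exists_min_image (Finset.univ : Finset (Finset V)) f
      ⟨∅, Finset.mem_univ _⟩
    obtain ⟨K0, hK0⟩ := exists_nat_ge (f S1 - f S2)
    refine ⟨K0, fun S T => ?_⟩
    have e1 := h1 T (Finset.mem_univ _)
    have e2 := h2 S (Finset.mem_univ _)
    linarith
  set K1 : ℝ := ∑ a, w a * (Fintype.card V : ℝ) with hK1
  have main : ∀ M : ℕ, (M : ℝ) * (∑ a, w a * (f (Bh a) - f (B a)) -
      ∑ t, w t * (f (J t) - f (I t))) ≤ K1 + K1 := by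
    intro M
    choose RB hRB using fun a j => exists_isMn f M j (hB a)
    choose RI hRI using fun t j => exists_isMn f M j (hI t)
    set A : ℕ → ℝ := fun j => ∑ a, w a * ((Bh a \ RB a j).card : ℝ) with hA
    set C : ℕ → ℝ := fun j => ∑ t, w t * ((J t \ RI t j).card : ℝ) with hC
    have hAC : ∀ j, A (j + 1) ≤ C j := by
      intro j
      simp only [hA, hC]
      rw [sum_card, sum_card]
      refine Finset.sum_le_sum fun x _ => ?_
      refine (hcol x _ ?_).trans (wt_mono hw ?_)
      · intro a ha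
        rw [Finset.mem_filter, Finset.mem_sdiff] at ha
        exact ⟨ha.2.1, fun h => ha.2.2 ((hRB a (j + 1)).lo h)⟩
      · intro t ht
        rw [Finset.mem_filter] at ht ⊢
        obtain ⟨-, h1, a, ha, hta⟩ := ht
        rw [Finset.mem_filter, Finset.mem_sdiff] at ha
        refine ⟨Finset.mem_univ _, Finset.mem_sdiff.2 ⟨h1, fun h => ha.2.2 ?_⟩⟩
        exact (hRI t j).subset hf (hRB a (j + 1)) (hIB t a hta) (hJB t a hta) h
    have hle : ∀ (P : V → Finset V), ∑ a, w a * ((P a).card : ℝ) ≤ K1 := by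
      intro P
      refine Finset.sum_le_sum fun a _ => mul_le_mul_of_nonneg_left ?_ (hw a)
      exact_mod_cast Finset.card_le_univ (P a)
    have h0 : ∀ j, 0 ≤ A j := fun j =>
      Finset.sum_nonneg fun a _ => mul_nonneg (hw a) (Nat.cast_nonneg _)
    have h0' : ∀ j, 0 ≤ C j := fun j =>
      Finset.sum_nonneg fun a _ => mul_nonneg (hw a) (Nat.cast_nonneg _)
    have h1 : (M : ℝ) * ∑ a, w a * (f (Bh a) - f (B a)) ≤
        ∑ j ∈ Finset.range (M * K0), A j := by
      simp only [hA]
      rw [Finset.sum_comm, Finset.mul_sum]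
      refine Finset.sum_le_sum fun a _ => ?_
      rw [← Finset.mul_sum]
      have := mul_le_mul_of_nonneg_left (par_upper hK0 (hB a) (hRB a)) (hw a)
      linarith
    have h2 : ∑ j ∈ Finset.range (M * K0), C (j + 1) ≤
        (M : ℝ) * ∑ t, w t * (f (J t) - f (I t)) := by
      simp only [hC]
      rw [Finset.sum_comm, Finset.mul_sum]
      refine Finset.sum_le_sum fun a _ => ?_
      rw [← Finset.mul_sum]
      have := mul_le_mul_of_nonneg_left
        (par_lower (hI a) (hmin a) (hRI a) (M * K0)) (hw a)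
      linarith
    have h3 : ∑ j ∈ Finset.range (M * K0), A j ≤
        ∑ j ∈ Finset.range (M * K0), A (j + 1) + A 0 := by
      rw [← Finset.sum_range_succ']
      rw [Finset.sum_range_succ]
      have := h0 (M * K0)
      linarith
    have h4 : ∑ j ∈ Finset.range (M * K0), C j ≤
        ∑ j ∈ Finset.range (M * K0), C (j + 1) + C 0 := by
      rw [← Finset.sum_range_succ']
      rw [Finset.sum_range_succ]
      have := h0' (M * K0)
      linarith
    have h5 : ∑ j ∈ Finset.range (M * K0), A (j + 1) ≤ ∑ j ∈ Finset.range (M * K0), C j :=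
      Finset.sum_le_sum fun j _ => hAC j
    have h6 : A 0 ≤ K1 := hle _
    have h7 : C 0 ≤ K1 := hle _
    rw [mul_sub]
    linarith
  by_contra hcon
  push Not at hcon
  set d := ∑ a, w a * (f (Bh a) - f (B a)) - ∑ t, w t * (f (J t) - f (I t)) with hd
  have hdpos : 0 < d := by rw [hd]; linarith
  obtain ⟨M, hM⟩ := exists_nat_gt ((K1 + K1) / d)
  have h1 := main M
  rw [div_lt_iff₀ hdpos] at hM
  linarith

/-! ### Outer pairs -/

/-- Outer pairs. -/
structure OuterP (N : V → Finset V) (B C : V → Finset V) : Prop where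
  hB : ∀ a, N a ⊆ B a
  hC : ∀ a, N a ⊆ C a
  dis : ∀ a b, b ∈ B a → a ∈ C b → a = b

/-- The cost of a pair. -/
noncomputable def cost (w : V → ℝ) (N : V → Finset V) (B C : V → Finset V) : ℝ :=
  ∑ a, w a * (cc w N (B a) + cc w N (C a))

theorem cost_comm (w : V → ℝ) (N : V → Finset V) (B C : V → Finset V) :
    cost w N B C = cost w N C B := by
  unfold cost
  exact Finset.sum_congr rfl fun a _ => by ring

theorem cost_update (w : V → ℝ) (N : V → Finset V) (B C : V → Finset V) (s : V)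
    (S : Finset V) : cost w N (Function.update B s S) C =
      cost w N B C + w s * (cc w N S - cc w N (B s)) := by
  have h1 : ∑ a, (w a * (cc w N (Function.update B s S a) + cc w N (C a)) -
      w a * (cc w N (B a) + cc w N (C a))) = w s * (cc w N S - cc w N (B s)) := by
    rw [Finset.sum_eq_single s]
    · rw [Function.update_self]; ring
    · intro b _ hb
      rw [Function.update_of_ne hb]; ring
    · intro h
      exact absurd (Finset.mem_univ s) h
  rw [Finset.sum_sub_distrib] at h1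
  unfold cost
  linarith

omit [Fintype V] [DecidableEq V] in
theorem OuterP.symm {N : V → Finset V} {B C : V → Finset V} (h : OuterP N B C) :
    OuterP N C B := ⟨h.hC, h.hB, fun a b h1 h2 => (h.dis b a h2 h1).symm⟩

/-- The outer optimum. -/
structure OuterOpt (w : V → ℝ) (N : V → Finset V) (B C : V → Finset V) : Prop
    extends OuterP N B C where
  opt : ∀ B' C', OuterP N B' C' → cost w N B C ≤ cost w N B' C'

theorem exists_outerOpt (w : V → ℝ) {N : V → Finset V}
    (hor : ∀ a b, b ∈ N a → a ∈ N b → a = b) : ∃ B C, OuterOpt w N B C := by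
  obtain ⟨p, hp, hmin⟩ := Set.exists_min_image
    {p : (V → Finset V) × (V → Finset V) | OuterP N p.1 p.2}
    (fun p => cost w N p.1 p.2) (Set.toFinite _)
    ⟨(N, N), ⟨fun a => Finset.Subset.refl _, fun a => Finset.Subset.refl _, hor⟩⟩
  exact ⟨p.1, p.2, hp, fun B' C' h => hmin (B', C') h⟩

theorem OuterOpt.symm {w : V → ℝ} {N : V → Finset V} {B C : V → Finset V}
    (h : OuterOpt w N B C) : OuterOpt w N C B :=
  ⟨h.toOuterP.symm, fun B' C' h' => by
    rw [cost_comm w N C B, cost_comm w N B' C']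
    exact h.opt C' B' h'.symm⟩

/-- Replacing one row. -/
theorem OuterOpt.row {w : V → ℝ} (hw : ∀ v, 0 < w v) {N : V → Finset V} {B C : V → Finset V}
    (h : OuterOpt w N B C) (s : V) (S : Finset V) (h1 : N s ⊆ S)
    (h2 : ∀ b ∈ S, s ∈ C b → s = b) : cc w N (B s) ≤ cc w N S := by
  have h3 : OuterP N (Function.update B s S) C := by
    refine ⟨fun a => ?_, h.hC, fun a b => ?_⟩
    · rcases eq_or_ne a s with rfl | ha
      · rw [Function.update_self]; exact h1
      · rw [Function.update_of_ne ha]; exact h.hB a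
    · rcases eq_or_ne a s with rfl | ha
      · rw [Function.update_self]; exact h2 b
      · rw [Function.update_of_ne ha]; exact h.dis a b
  have h4 := h.opt _ _ h3
  rw [cost_update] at h4
  have h5 : 0 ≤ w s * (cc w N S - cc w N (B s)) := by linarith
  have h6 := nonneg_of_mul_nonneg_right h5 (hw s)
  linarith

/-- The largest allowed rows. -/
def hat (C : V → Finset V) (a : V) : Finset V :=
  Finset.univ.filter fun b => b = a ∨ a ∉ C b

theorem mem_hat {C : V → Finset V} {a b : V} : b ∈ hat C a ↔ b = a ∨ a ∉ C b := by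
  simp [hat]

/-- Erosion: the intersection of the rows `P a` over the closed in-neighbours `a` of `t`. -/
def er (N : V → Finset V) (P : V → Finset V) (t : V) : Finset V :=
  Finset.univ.filter fun x => ∀ a, t ∈ N a → x ∈ P a

theorem mem_er {N P : V → Finset V} {t x : V} : x ∈ er N P t ↔ ∀ a, t ∈ N a → x ∈ P a := by
  simp [er]

omit [DecidableEq V] in
/-- Successive intersection. -/
theorem inter_chain [DecidableEq V] {f : Finset V → ℝ} {B Bh : V → Finset V} (T : Finset V)
    (h : ∀ a ∈ T, ∀ S, S ⊆ Bh a → f (S ∩ B a) ≤ f S) (Z : Finset V) (hZ : ∀ a ∈ T, Z ⊆ Bh a) :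
    f (Z.filter fun x => ∀ a ∈ T, x ∈ B a) ≤ f Z := by
  induction T using Finset.induction_on with
  | empty => simp
  | insert a T ha ih =>
    have h1 := ih (fun b hb => h b (Finset.mem_insert_of_mem hb))
      (fun b hb => hZ b (Finset.mem_insert_of_mem hb))
    have h2 := h a (Finset.mem_insert_self a T) (Z.filter fun x => ∀ a ∈ T, x ∈ B a)
      ((Finset.filter_subset _ _).trans (hZ a (Finset.mem_insert_self a T)))
    have h3 : (Z.filter fun x => ∀ b ∈ insert a T, x ∈ B b) =
        (Z.filter fun x => ∀ a ∈ T, x ∈ B a) ∩ B a := by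
      ext x
      simp only [Finset.mem_filter, Finset.mem_inter, Finset.mem_insert, forall_eq_or_imp]
      tauto
    rw [h3]
    exact h2.trans h1

/-! ### Bookkeeping -/

/-- The product mass of a relation. -/
noncomputable def ms (w : V → ℝ) (P : V → Finset V) : ℝ := ∑ a, w a * wt w (P a)

/-- The reference mass. -/
noncomputable def KK (w : V → ℝ) : ℝ := ∑ a, ∑ b, w a * w b * (1 + if a = b then 1 else 0)

theorem ms_eq (w : V → ℝ) (P : V → Finset V) :
    ms w P = ∑ a, ∑ b, w a * w b * (if b ∈ P a then 1 else 0) := by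
  unfold ms wt
  refine Finset.sum_congr rfl fun a _ => ?_
  simp only [mul_ite, mul_one, mul_zero]
  rw [Finset.sum_ite_mem, Finset.univ_inter, Finset.mul_sum]

theorem ms_eq' (w : V → ℝ) (P : V → Finset V) :
    ms w P = ∑ a, ∑ b, w a * w b * (if a ∈ P b then 1 else 0) := by
  rw [ms_eq, Finset.sum_comm]
  refine Finset.sum_congr rfl fun a _ => Finset.sum_congr rfl fun b _ => ?_
  rw [mul_comm (w b)]

theorem ms_add_le {w : V → ℝ} (hw : ∀ v, 0 ≤ w v) {P Q : V → Finset V}
    (h : ∀ a b, b ∈ P a → a ∈ Q b → a = b) : ms w P + ms w Q ≤ KK w := by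
  rw [ms_eq, ms_eq' w Q, ← Finset.sum_add_distrib]
  unfold KK
  refine Finset.sum_le_sum fun a _ => ?_
  rw [← Finset.sum_add_distrib]
  refine Finset.sum_le_sum fun b _ => ?_
  rw [← mul_add]
  refine mul_le_mul_of_nonneg_left ?_ (mul_nonneg (hw a) (hw b))
  have := h a b
  by_cases h1 : b ∈ P a <;> by_cases h2 : a ∈ Q b <;> by_cases h3 : a = b <;>
    simp_all

theorem le_ms_add {w : V → ℝ} (hw : ∀ v, 0 ≤ w v) {P Q : V → Finset V}
    (h : ∀ a b, b ∈ P a ∨ a ∈ Q b) (h1 : ∀ a, a ∈ P a) (h2 : ∀ a, a ∈ Q a) :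
    KK w ≤ ms w P + ms w Q := by
  rw [ms_eq, ms_eq' w Q, ← Finset.sum_add_distrib]
  unfold KK
  refine Finset.sum_le_sum fun a _ => ?_
  rw [← Finset.sum_add_distrib]
  refine Finset.sum_le_sum fun b _ => ?_
  rw [← mul_add]
  refine mul_le_mul_of_nonneg_left ?_ (mul_nonneg (hw a) (hw b))
  rcases eq_or_ne a b with rfl | hab
  · simp [h1 a, h2 a]
  · rcases h a b with h3 | h3
    · simp only [h3, hab, if_true, if_false]
      split_ifs <;> norm_num
    · simp only [h3, hab, if_true, if_false]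
      split_ifs <;> norm_num

theorem sum_cc (w : V → ℝ) (N P : V → Finset V) :
    ∑ a, w a * cc w N (P a) = ms w (fun a => cl N (P a)) - ms w P := by
  unfold ms cc
  rw [← Finset.sum_sub_distrib]
  exact Finset.sum_congr rfl fun a _ => by ring

theorem cost_eq (w : V → ℝ) (N B C : V → Finset V) :
    cost w N B C = (ms w (fun a => cl N (B a)) - ms w B) +
      (ms w (fun a => cl N (C a)) - ms w C) := by
  rw [← sum_cc, ← sum_cc, ← Finset.sum_add_distrib]
  unfold cost
  exact Finset.sum_congr rfl fun a _ => by ring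

/-! ### The eroded pair -/

section

variable {w : V → ℝ} {N B C : V → Finset V}

/-- Off the diagonal, `N[J a]` and the transpose of `N[Y b]` are disjoint. -/
theorem er_dis (hs : ∀ a, a ∈ N a) (h : OuterP N B C) (a b : V)
    (h1 : b ∈ cl N (er N (hat C) a)) (h2 : a ∈ cl N (er N C b)) : a = b := by
  obtain ⟨b', hb', hb⟩ := mem_cl.1 h1
  obtain ⟨a', ha', ha⟩ := mem_cl.1 h2
  rw [mem_er] at hb' ha'
  -- `a' ∈ C b'` and `b' ∈ hat C a'`
  have h3 : a' ∈ C b' := ha' b' hb
  have h4 := mem_hat.1 (hb' a' ha)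
  have h5 : b' = a' := by
    rcases h4 with h4 | h4
    · exact h4
    · exact absurd h3 h4
  subst h5
  -- now `a, b ∈ N b'`
  have h6 := mem_hat.1 (hb' a (hs a))
  rcases h6 with h6 | h6
  · subst h6
    -- `b' = a`
    have h7 : b' ∈ C b := ha' b (hs b)
    exact h.dis b' b (h.hB b' hb) h7
  · exact absurd (h.hC b' ha) h6

theorem inner_le_outer (hw : ∀ v, 0 < w v) (hs : ∀ a, a ∈ N a) (h : OuterOpt w N B C) :
    cost w N (er N B) (er N C) ≤ cost w N B C := by
  have hw0 : ∀ v, 0 ≤ w v := fun v => (hw v).le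
  set Bh := hat C with hBh
  set I := er N B with hI
  set J := er N Bh with hJ
  have hBBh : ∀ a, B a ⊆ Bh a := by
    intro a b hb
    rw [hBh, mem_hat]
    by_cases hab : a ∈ C b
    · exact Or.inl (h.dis a b hb hab).symm
    · exact Or.inr hab
  have hIJ : ∀ t, I t ⊆ J t := by
    intro t x hx
    rw [hI, mem_er] at hx
    rw [hJ, mem_er]
    exact fun a ha => hBBh a (hx a ha)
  -- rows
  have hrow : ∀ a, ∀ S, S ⊆ Bh a → cc w N (S ∩ B a) ≤ cc w N S := by
    intro a S hS
    have h1 := cc_submod hw0 N S (B a)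
    have h2 := h.row hw a (S ∪ B a) ((h.hB a).trans Finset.subset_union_right) (by
      intro b hb hab
      rcases Finset.mem_union.1 hb with hb | hb
      · rcases mem_hat.1 (hS hb) with h3 | h3
        · exact h3.symm
        · exact absurd hab h3
      · exact h.dis a b hb hab)
    linarith
  have hmin : ∀ t S, I t ⊆ S → S ⊆ J t → cc w N (I t) ≤ cc w N S := by
    intro t S h1 h2
    have h3 := inter_chain (f := cc w N) (B := B) (Bh := Bh)
      (Finset.univ.filter fun a => t ∈ N a) (fun a _ => hrow a) S (by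
        intro a ha x hx
        rw [Finset.mem_filter] at ha
        have := h2 hx
        rw [hJ, mem_er] at this
        exact this a ha.2)
    have h4 : (S.filter fun x => ∀ a ∈ Finset.univ.filter fun a => t ∈ N a, x ∈ B a) = I t := by
      ext x
      rw [hI, mem_er]
      simp only [Finset.mem_filter, Finset.mem_univ, true_and]
      constructor
      · exact fun h => h.2
      · intro h
        exact ⟨h1 (by rw [hI, mem_er]; exact h), h⟩
    rwa [h4] at h3
  -- columns
  have hcol : ∀ x, ∀ D : Finset V, (∀ a ∈ D, x ∈ Bh a ∧ x ∉ B a) →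
      wt w D ≤ wt w (Finset.univ.filter fun t => x ∈ J t ∧ ∃ a ∈ D, t ∈ N a) := by
    intro x D hD
    have h1 := h.symm.row hw x (C x ∪ D) ((h.hC x).trans Finset.subset_union_left) (by
      intro a ha hxa
      rcases Finset.mem_union.1 ha with ha | ha
      · exact (h.dis a x hxa ha).symm
      · exact absurd hxa (hD a ha).2)
    have hdis : Disjoint (C x) D := by
      rw [Finset.disjoint_left]
      intro a ha haD
      rcases mem_hat.1 (hD a haD).1 with h3 | h3
      · subst h3
        exact (hD x haD).2 (h.hB x (hs x))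
      · exact h3 ha
    have h2 : wt w (C x ∪ D) = wt w (C x) + wt w D := wt_union hdis
    have h3 : cl N (C x ∪ D) ⊆ cl N (C x) ∪
        (Finset.univ.filter fun t => x ∈ J t ∧ ∃ a ∈ D, t ∈ N a) := by
      intro t ht
      rw [Finset.mem_union]
      by_cases htc : t ∈ cl N (C x)
      · exact Or.inl htc
      · right
        obtain ⟨a, ha, hta⟩ := mem_cl.1 ht
        rw [Finset.mem_filter]
        refine ⟨Finset.mem_univ _, ?_, ?_⟩
        · rw [hJ, mem_er]
          intro s hts
          rw [hBh, mem_hat]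
          exact Or.inr fun hsx => htc (mem_cl.2 ⟨s, hsx, hts⟩)
        · rcases Finset.mem_union.1 ha with ha | ha
          · exact absurd (mem_cl.2 ⟨a, ha, hta⟩) htc
          · exact ⟨a, ha, hta⟩
    have h4 := wt_mono hw0 h3
    have h5 := wt_union_inter w (cl N (C x))
      (Finset.univ.filter fun t => x ∈ J t ∧ ∃ a ∈ D, t ∈ N a)
    have h6 : 0 ≤ wt w (cl N (C x) ∩
        (Finset.univ.filter fun t => x ∈ J t ∧ ∃ a ∈ D, t ∈ N a)) :=
      Finset.sum_nonneg fun v _ => hw0 v
    unfold cc at h1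
    linarith
  have hkey := key hw0 N (f := cc w N) (cc_submod hw0 N) hBBh hIJ
    (by
      intro t a hta x hx
      rw [hI, mem_er] at hx
      exact hx a hta)
    (by
      intro t a hta x hx
      rw [hJ, mem_er] at hx
      exact hx a hta)
    hmin hcol
  simp only [mul_sub, Finset.sum_sub_distrib] at hkey
  rw [sum_cc, sum_cc, sum_cc, sum_cc] at hkey
  have k1 : ms w Bh + ms w C ≤ KK w := ms_add_le hw0 (by
    intro a b h1 h2
    rcases mem_hat.1 h1 with h3 | h3
    · exact h3.symm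
    · exact absurd h2 h3)
  have k2 : ms w (fun a => cl N (J a)) + ms w (fun a => cl N (er N C a)) ≤ KK w :=
    ms_add_le hw0 (fun a b => er_dis hs h.toOuterP a b)
  -- `a ∈ C a`, `a ∈ J a`, `a ∈ Y a`
  have haC : ∀ a, a ∈ C a := fun a => h.hC a (hs a)
  have haJ : ∀ a, a ∈ J a := by
    intro a
    rw [hJ, mem_er]
    intro s hs'
    exact hBBh s (h.hB s hs')
  have haY : ∀ a, a ∈ er N C a := by
    intro a
    rw [mem_er]
    intro s hs'
    exact h.hC s hs'
  have hcl : ∀ (S : Finset V) x, x ∈ S → x ∈ cl N S := fun S x hx => mem_cl.2 ⟨x, hx, hs x⟩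
  have k3 : KK w ≤ ms w J + ms w (fun a => cl N (C a)) := le_ms_add hw0 (by
    intro a b
    by_cases hab : a ∈ cl N (C b)
    · exact Or.inr hab
    · left
      rw [hJ, mem_er]
      intro s hs'
      rw [hBh, mem_hat]
      exact Or.inr fun h1 => hab (mem_cl.2 ⟨s, h1, hs'⟩)) haJ (fun a => hcl _ _ (haC a))
  have k4 : KK w ≤ ms w (fun a => cl N (Bh a)) + ms w (er N C) := le_ms_add hw0 (by
    intro a b
    by_cases hab : a ∈ er N C b
    · exact Or.inr hab
    · left
      rw [mem_er] at hab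
      push Not at hab
      obtain ⟨s, hs', h1⟩ := hab
      exact mem_cl.2 ⟨s, by rw [hBh, mem_hat]; exact Or.inr h1, hs'⟩)
      (fun a => hcl _ _ (by rw [hBh, mem_hat]; exact Or.inl rfl)) haY
  rw [cost_eq, cost_eq]
  linarith

end

/-- If `c(N[S]) < c(S)` for every set that is not closed, there is a sink. -/
theorem no_strict [Nonempty V] {w : V → ℝ} (hw : ∀ v, 0 < w v) {N : V → Finset V}
    (hs : ∀ a, a ∈ N a) (hor : ∀ a b, b ∈ N a → a ∈ N b → a = b)
    (hG : ∀ S, cl N S ≠ S → cc w N (cl N S) < cc w N S) :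
    ∃ a, ∀ b ∈ N a, b = a := by
  obtain ⟨B, C, h⟩ := exists_outerOpt w hor
  have hBBh : ∀ a, B a ⊆ hat C a := by
    intro a b hb
    rw [mem_hat]
    by_cases hab : a ∈ C b
    · exact Or.inl (h.dis a b hb hab).symm
    · exact Or.inr hab
  have h1 := inner_le_outer hw hs h
  set I := er N B with hI
  set Y := er N C with hY
  have hdis : ∀ a b, b ∈ cl N (I a) → a ∈ cl N (Y b) → a = b := by
    intro a b h2 h3
    refine er_dis hs h.toOuterP a b ?_ h3
    obtain ⟨y, hy, hb⟩ := mem_cl.1 h2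
    refine mem_cl.2 ⟨y, ?_, hb⟩
    rw [hI, mem_er] at hy
    rw [mem_er]
    exact fun s hs' => hBBh s (hy s hs')
  have haI : ∀ a, a ∈ I a := fun a => by
    rw [hI, mem_er]
    exact fun s hs' => h.hB s hs'
  have haY : ∀ a, a ∈ Y a := fun a => by
    rw [hY, mem_er]
    exact fun s hs' => h.hC s hs'
  have h2 := h.opt (fun a => cl N (I a)) (fun a => cl N (Y a))
    ⟨fun a x hx => mem_cl.2 ⟨a, haI a, hx⟩, fun a x hx => mem_cl.2 ⟨a, haY a, hx⟩, hdis⟩
  have h3 : ∀ S, cc w N (cl N S) ≤ cc w N S := by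
    intro S
    by_cases hS : cl N S = S
    · rw [hS]
    · exact (hG S hS).le
  have hclosed : ∀ a, cl N (I a) = I a ∧ cl N (Y a) = Y a := by
    by_contra hcon
    push Not at hcon
    obtain ⟨a, ha⟩ := hcon
    have h4 : cost w N (fun a => cl N (I a)) (fun a => cl N (Y a)) < cost w N I Y := by
      unfold cost
      refine Finset.sum_lt_sum (fun b _ => mul_le_mul_of_nonneg_left
        (add_le_add (h3 _) (h3 _)) (hw b).le) ⟨a, Finset.mem_univ _, ?_⟩
      refine mul_lt_mul_of_pos_left ?_ (hw a)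
      by_cases h5 : cl N (I a) = I a
      · exact add_lt_add_of_le_of_lt (h3 _) (hG _ (ha h5))
      · exact add_lt_add_of_lt_of_le (hG _ h5) (h3 _)
    linarith
  -- reach sets
  classical
  let r : V → Finset V := fun a =>
    Finset.univ.filter fun z => Relation.ReflTransGen (fun x y => y ∈ N x) a z
  have hr : ∀ (S : Finset V), cl N S = S → ∀ a ∈ S, r a ⊆ S := by
    intro S hS a ha z hz
    have hz' : Relation.ReflTransGen (fun x y => y ∈ N x) a z := (Finset.mem_filter.1 hz).2
    induction hz' with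
    | refl => exact ha
    | tail h4 h5 ih =>
      rw [← hS]
      exact mem_cl.2 ⟨_, ih (Finset.mem_filter.2 ⟨Finset.mem_univ _, h4⟩), h5⟩
  obtain ⟨a, -, hmin⟩ := Finset.exists_min_image (Finset.univ : Finset V) (fun a => (r a).card)
    Finset.univ_nonempty
  refine ⟨a, fun b hb => ?_⟩
  have h4 : r b ⊆ r a := by
    intro z hz
    rw [Finset.mem_filter] at hz ⊢
    exact ⟨Finset.mem_univ _, Relation.ReflTransGen.head hb hz.2⟩
  have h5 : r b = r a := Finset.eq_of_subset_of_card_le h4 (hmin b (Finset.mem_univ _))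
  have h6 : a ∈ r b := by
    rw [h5, Finset.mem_filter]
    exact ⟨Finset.mem_univ _, Relation.ReflTransGen.refl⟩
  have h7 : a ∈ Y b := hr (Y b) (hclosed b).2 b (haY b) h6
  have h8 : a ∈ cl N (Y b) := by rw [(hclosed b).2]; exact h7
  have h9 : b ∈ cl N (I a) := mem_cl.2 ⟨a, haI a, hb⟩
  exact (hdis a b h9 h8).symm

end Vale.Agent.P038.H795
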