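import Vale.Agent.P038.H71.Plan
import Vale.Agent.P038.H795.Core

/-!
# P038 (H795): Seymour's second neighbourhood conjecture
-/

namespace Vale.Agent.P038.H795

open Finset Vale.Agent.P038

universe u

/-- Closed out-neighbourhoods. -/
noncomputable def NN {V : Type*} [Fintype V] (D : OGraph V) (a : V) : Finset V :=
  H139.cl D {a}

theorem mem_NN {V : Type*} [Fintype V] {D : OGraph V} {a z : V} :
    z ∈ NN D a ↔ z = a ∨ D.arc a z := by
  unfold NN
  rw [H139.mem_cl]
  simp

theorem cl_NN {V : Type*} [Fintype V] [DecidableEq V] (D : OGraph V) (S : Finset V) :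
    cl (NN D) S = H139.cl D S := by
  ext z
  rw [mem_cl, H139.mem_cl]
  constructor
  · rintro ⟨y, hy, hz⟩
    rcases mem_NN.1 hz with rfl | h
    · exact Or.inl hy
    · exact Or.inr ⟨y, hy, h⟩
  · rintro (h | ⟨y, hy, h⟩)
    · exact ⟨z, h, mem_NN.2 (Or.inl rfl)⟩
    · exact ⟨y, hy, mem_NN.2 (Or.inr h)⟩

/-- The strict inequality `c(N[X]) < c(X)` in the normal form with the fewest arcs. -/
theorem strictG {V : Type u} [Fintype V] [DecidableEq V] {D : OGraph V} {w : V → ℝ}
    (h : H139.NFmin 1 D w) (X : Finset V) (hX : H139.cl D X ≠ X) :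
    H139.W w (H139.cl D (H139.cl D X)) - H139.W w (H139.cl D X) <
      H139.W w (H139.cl D X) - H139.W w X := by
  set L := H71.Lx D X with hL
  have hL' : L = H139.outS D X \ X := hL
  have e1 : H139.cl D X = X ∪ L := by
    ext z
    rw [H139.mem_cl, Finset.mem_union, hL', Finset.mem_sdiff, H139.mem_outS]
    tauto
  have hdis : Disjoint X L := by
    rw [hL']
    exact Finset.disjoint_sdiff
  have hne : (∅ : Finset V) ⊂ L := by
    rw [Finset.empty_ssubset, Finset.nonempty_iff_ne_empty]
    intro h0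
    apply hX
    rw [e1, h0, Finset.union_empty]
  have h1 := H71.plan_lt h X ∅ hne
  have h0 : H139.cl D (∅ : Finset V) = ∅ := by
    rw [Finset.eq_empty_iff_forall_notMem]
    intro z hz
    rw [H139.mem_cl] at hz
    simp at hz
  unfold H71.dd at h1
  rw [h0, ← hL] at h1
  have h2 : H139.W w (∅ \ X) = 0 := by simp [H139.W]
  have h3 : H139.W w (∅ : Finset V) = 0 := by simp [H139.W]
  rw [h2, h3] at h1
  have e2 : H139.cl D (X ∪ L) = X ∪ (H139.cl D L \ X) := by
    rw [Finset.union_sdiff_self_eq_union]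
    ext z
    rw [H139.mem_cl, Finset.mem_union, Finset.mem_union, H139.mem_cl]
    constructor
    · rintro ((h4 | h4) | ⟨y, hy, hyz⟩)
      · exact Or.inl h4
      · exact Or.inr (Or.inl h4)
      · rcases Finset.mem_union.1 hy with hy | hy
        · by_cases hz : z ∈ X
          · exact Or.inl hz
          · refine Or.inr (Or.inl ?_)
            rw [hL', Finset.mem_sdiff, H139.mem_outS]
            exact ⟨⟨y, hy, hyz⟩, hz⟩
        · exact Or.inr (Or.inr ⟨y, hy, hyz⟩)
    · rintro (h4 | h4 | ⟨y, hy, hyz⟩)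
      · exact Or.inl (Or.inl h4)
      · exact Or.inl (Or.inr h4)
      · exact Or.inr ⟨y, Finset.mem_union_right _ hy, hyz⟩
  rw [e1, e2, H139.W_union hdis, H139.W_union Finset.disjoint_sdiff]
  linarith

/-- There is no normal form for `lam = 1`. -/
theorem no_nf {V : Type u} [Fintype V] [Nonempty V] (D : OGraph V) (w : V → ℝ) :
    ¬ H139.NF 1 D w := by
  classical
  intro hnf
  obtain ⟨D, w, h⟩ := H139.exists_nfmin hnf
  obtain ⟨a, ha⟩ := no_strict (N := NN D) (w := w) h.pos
    (fun a => mem_NN.2 (Or.inl rfl))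
    (by
      intro a b h1 h2
      rcases mem_NN.1 h1 with h1 | h1
      · exact h1.symm
      · rcases mem_NN.1 h2 with h2 | h2
        · exact h2
        · exact absurd h2 (D.asymm a b h1))
    (by
      intro S hS
      unfold cc
      simp only [cl_NN] at hS ⊢
      exact strictG h S hS)
  have h1 := h.one a
  have h2 : N1 D a = ∅ := by
    rw [Finset.eq_empty_iff_forall_notMem]
    intro z hz
    have hz' := mem_N1.1 hz
    have := ha z (mem_NN.2 (Or.inr hz'))
    rw [this] at hz'
    exact D.loopless a hz'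
  unfold H139.Fw at h1
  rw [h2] at h1
  have h3 : H139.W w (∅ : Finset V) = 0 := by simp [H139.W]
  have h4 := H139.W_nonneg (fun v => (h.pos v).le) (N2 D a)
  rw [h3] at h1
  linarith

/-- Weighted form of Seymour's second neighbourhood conjecture. -/
theorem weighted {V : Type u} [Fintype V] [Nonempty V] (D : OGraph V) (w : V → ℝ)
    (hw : ∀ v, 0 ≤ w v) : ∃ v, ∑ u ∈ N1 D v, w u ≤ ∑ u ∈ N2 D v, w u := by
  obtain ⟨v, hv⟩ := H139.snc_of_noNF (lam := 1) zero_le_one
    (fun V _ _ D w => no_nf D w) D w hw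
  exact ⟨v, by rwa [one_mul] at hv⟩

/-- Seymour's second neighbourhood conjecture. -/
theorem snc {V : Type u} [Fintype V] [Nonempty V] (D : OGraph V) :
    ∃ v, (N1 D v).card ≤ (N2 D v).card := by
  obtain ⟨v, hv⟩ := weighted D (fun _ => 1) (fun _ => zero_le_one)
  refine ⟨v, ?_⟩
  simp only [Finset.sum_const, nsmul_eq_mul, mul_one] at hv
  exact_mod_cast hv

end Vale.Agent.P038.H795
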